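import Vale.Agent.P016.Fld
import Vale.Agent.P319N.Mob

namespace Vale.Agent.P016

open NumberField Filter Topology IsDedekindDomain Vale.Agent.P319E
open scoped Classical Real

noncomputable section

/-- the weight of a prime -/
def ww (X : ℝ) (l : ℕ) : ℝ := Real.log l * Wr (l / X)

theorem ww_nonneg (X : ℝ) (l : ℕ) : 0 ≤ ww X l := tl_nonneg X l

theorem ww_le (X : ℝ) (l : ℕ) : ww X l ≤ Real.log l :=
  mul_le_of_le_one_right (Real.log_natCast_nonneg l) (Wr_le_one _)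

theorem pntA : ∃ C : ℝ, 0 < C ∧ ∀ (F : Type) [Field F] [NumberField F] (m : ℕ) (z : F), 0 < m →
    12 ∣ m → IsPrimitiveRoot z m → ∀ X : ℝ, 1 ≤ X →
      |Psi F X - Main X| ≤ C * lD F * X ^ (1999 / 2000 : ℝ) := by
  obtain ⟨C, c1, H⟩ := pnt (θ := 999 / 1000) (σ := 1999 / 2000) (by norm_num) (by norm_num)
    (by norm_num)
  refine ⟨C, c1, fun F _ _ m z m0 ⟨k, hk⟩ hz X hX => ?_⟩
  have h12 := hz.pow m0 (hk.trans (mul_comm _ _))
  have : IsTotallyComplex F := nrRealPlaces_eq_zero_iff.1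
    (InfinitePlace.IsPrimitiveRoot.nrRealPlaces_eq_zero_of_two_lt (by norm_num) h12)
  exact H F (P319N.mobBound F ⟨_, h12⟩) X hX

/-- the density of the primes modulo which the base is a `q`-th power -/
def dq (q : ℕ) : ℝ := 1 / ((q * (Nat.lcm 12 q).totient : ℕ) : ℝ)

theorem sq_le : ∃ C : ℝ, 0 < C ∧ ∀ (a q : ℕ) (X : ℝ), Adm a → q.Prime → 1 ≤ X → ∀ s : Finset ℕ,
    (∀ l ∈ s, l.Prime ∧ Nat.lcm 12 q ∣ l - 1 ∧ ¬ l ∣ a ∧ ∃ x : ZMod l, x ^ q = a) →
    ∑ l ∈ s, ww X l ≤ Main X * dq q + C * q ^ 2 * (1 + Real.log a) * X ^ (1999 / 2000 : ℝ) := by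
  obtain ⟨C, c1, H⟩ := pntA
  refine ⟨12 * C, by positivity, fun a q X ha hq hX s hs => ?_⟩
  obtain ⟨L, _, ζ, α, hG, h1, hα, hgen, n1, n2, d⟩ := fieldsA ha hq
  have m0 : 0 < Nat.lcm 12 q := Nat.lcm_pos (by norm_num) hq.pos
  have X0 : 0 < X := by linarith
  have a1 := psi_lower (K := L) (N := Module.finrank ℚ L) (S := fun l => l ∈ s)
    (fun l hl => ⟨(hs l hl).1, splitA hq (hs l hl).1 (Nat.dvd_lcm_right _ _) (hs l hl).2.1
      (hs l hl).2.2.1 h1.pow_eq_one hα hgen (hs l hl).2.2.2⟩) X0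
  rw [tsum_eq_sum (s := s) (fun l hl => by rw [if_neg hl]),
    Finset.sum_congr rfl (fun l hl => by rw [if_pos hl])] at a1
  have a2 := (abs_le.1 (H L _ ζ m0 (Nat.dvd_lcm_left _ _) h1 X hX)).2
  have a3 : 0 ≤ Main X := le_trans (by positivity) (main_ge hX)
  have p0 : (0 : ℝ) < ((q * (Nat.lcm 12 q).totient : ℕ) : ℝ) := by
    exact_mod_cast Nat.mul_pos hq.pos (Nat.totient_pos.2 m0)
  have n1' : ((q * (Nat.lcm 12 q).totient : ℕ) : ℝ) ≤ Module.finrank ℚ L := by exact_mod_cast n1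
  have n2' : (Module.finrank ℚ L : ℝ) ≤ 4 * q ^ 2 := by exact_mod_cast n2
  have la : 0 ≤ 1 + Real.log a := by have := Real.log_natCast_nonneg a; linarith
  have y0 : 0 ≤ X ^ (1999 / 2000 : ℝ) := by positivity
  unfold dq ww
  generalize (Module.finrank ℚ L : ℝ) = n at *
  generalize ((q * (Nat.lcm 12 q).totient : ℕ) : ℝ) = D at *
  have n0 : 0 < n := p0.trans_le n1'
  refine le_of_mul_le_mul_left (a1.trans ?_) n0
  have b1 : Main X ≤ n * (Main X * (1 / D)) := by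
    rw [mul_one_div, ← mul_div_assoc, le_div_iff₀ p0, mul_comm n]
    exact mul_le_mul_of_nonneg_left n1' a3
  have b2 : C * lD L * X ^ (1999 / 2000 : ℝ) ≤
      n * (12 * C * q ^ 2 * (1 + Real.log a) * X ^ (1999 / 2000 : ℝ)) :=
    calc _ ≤ C * (3 * n ^ 2 * (1 + Real.log a)) * X ^ (1999 / 2000 : ℝ) := by gcongr
      _ = n * (3 * C * n * (1 + Real.log a) * X ^ (1999 / 2000 : ℝ)) := by ring
      _ ≤ n * (3 * C * (4 * q ^ 2) * (1 + Real.log a) * X ^ (1999 / 2000 : ℝ)) := by gcongr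
      _ = _ := by ring
  rw [mul_add]
  linarith

theorem cyc12 : ∃ (K : IntermediateField ℚ ℂ) (_ : NumberField K) (z : K),
    IsPrimitiveRoot z 12 ∧ Module.finrank ℚ K = 4 := by
  obtain ⟨z, hz⟩ : ∃ z : ℂ, IsPrimitiveRoot z 12 := ⟨_, Complex.isPrimitiveRoot_exp 12 (by norm_num)⟩
  have iz : IsIntegral ℚ z := IsIntegral.of_pow (by norm_num) (hz.pow_eq_one ▸ isIntegral_one)
  have fK := IntermediateField.adjoin.finiteDimensional iz
  have nK : NumberField (IntermediateField.adjoin ℚ ({z} : Set ℂ)) := ⟨⟩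
  have zK : z ∈ IntermediateField.adjoin ℚ ({z} : Set ℂ) :=
    IntermediateField.subset_adjoin _ _ (by simp)
  refine ⟨_, nK, ⟨z, zK⟩, IsPrimitiveRoot.coe_submonoidClass_iff.1 hz, ?_⟩
  rw [IntermediateField.adjoin.finrank iz, ← Polynomial.cyclotomic_eq_minpoly_rat hz (by norm_num),
    Polynomial.natDegree_cyclotomic]
  decide

theorem ap_ge : ∃ C : ℝ, 0 < C ∧ ∀ X : ℝ, 1 ≤ X →
    Main X / 4 - C * X ^ (1999 / 2000 : ℝ) ≤ Ap 12 X := by
  obtain ⟨C, c1, H⟩ := pntA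
  obtain ⟨C₂, c2, H2⟩ := psi_upper
  obtain ⟨K, _, z, hz, hn⟩ := cyc12
  have l0 := one_le_lD K
  refine ⟨C * lD K / 4 + 12 * C₂, by positivity, fun X hX => ?_⟩
  have a1 := (abs_le.1 (H _ 12 _ (by norm_num) dvd_rfl hz X hX)).1
  have a2 := H2 _ 12 _ (by norm_num) hz X hX
  rw [hn] at a2
  have a3 : X ^ (3 / 4 : ℝ) ≤ X ^ (1999 / 2000 : ℝ) :=
    Real.rpow_le_rpow_of_exponent_le hX (by norm_num)
  have a4 := mul_le_mul_of_nonneg_left a3 c2.le
  push_cast at a2
  linarith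

theorem theta_sum {y : ℝ} (hy : 0 ≤ y) (u : Finset ℕ) (h : ∀ l ∈ u, l.Prime ∧ (l : ℝ) ≤ y) :
    ∑ l ∈ u, Real.log l ≤ 3 / 2 * y := by
  have h1 := Chebyshev.theta_le_log4_mul_x hy
  have h2 : Real.log 4 ≤ 3 / 2 := by
    rw [show (4 : ℝ) = 2 ^ 2 by norm_num, Real.log_pow]
    have := Real.log_two_lt_d9
    push_cast; linarith
  refine le_trans ?_ (h1.trans (mul_le_mul_of_nonneg_right h2 hy))
  refine Finset.sum_le_sum_of_subset_of_nonneg (fun l hl => ?_)
    fun l _ _ => Real.log_natCast_nonneg l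
  rw [Finset.mem_filter, Finset.mem_Ioc]
  exact ⟨⟨(h l hl).1.pos, Nat.le_floor (h l hl).2⟩, (h l hl).1⟩

theorem tail_sum {x : ℝ} (hx : 0 < x) (J : ℕ) (u : Finset ℕ)
    (h : ∀ l ∈ u, l.Prime ∧ x < l ∧ (l : ℝ) ≤ 2 ^ J * x) :
    ∑ l ∈ u, Real.log l / (l : ℝ) ^ 2 ≤ 6 / x * (1 - 1 / 2 ^ J) := by
  induction J generalizing u with
  | zero =>
    rw [Finset.sum_eq_zero fun l hl => absurd (h l hl).2.1 (by simpa using (h l hl).2.2)]
    simp
  | succ J ih =>
    rw [← Finset.sum_filter_add_sum_filter_not u (fun l : ℕ => (l : ℝ) ≤ 2 ^ J * x)]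
    have h1 := ih (u.filter fun l : ℕ => (l : ℝ) ≤ 2 ^ J * x) fun l hl => by
      rw [Finset.mem_filter] at hl
      exact ⟨(h l hl.1).1, (h l hl.1).2.1, hl.2⟩
    have h2 := theta_sum (y := 2 ^ (J + 1) * x) (by positivity)
      (u.filter fun l : ℕ => ¬ (l : ℝ) ≤ 2 ^ J * x) fun l hl => by
        rw [Finset.mem_filter] at hl
        exact ⟨(h l hl.1).1, (h l hl.1).2.2⟩
    have h3 : ∑ l ∈ u.filter (fun l : ℕ => ¬ (l : ℝ) ≤ 2 ^ J * x), Real.log l / (l : ℝ) ^ 2 ≤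
        (3 / 2 * (2 ^ (J + 1) * x)) / (2 ^ J * x) ^ 2 := by
      refine le_trans ?_ (div_le_div_of_nonneg_right h2 (by positivity))
      rw [Finset.sum_div]
      refine Finset.sum_le_sum fun l hl => ?_
      have := (not_le.1 (Finset.mem_filter.1 hl).2).le
      have := Real.log_natCast_nonneg l
      gcongr
    refine (add_le_add h1 h3).trans (le_of_eq ?_)
    field_simp
    ring

/-- the primes `l = 1 mod 12` up to `x` -/
def PP (x : ℝ) : Finset ℕ := (Finset.Ioc 0 ⌊x⌋₊).filter fun l => l.Prime ∧ 12 ∣ l - 1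

theorem ap_le {X K : ℝ} (hX : 0 < X) (hK : 0 < K) :
    Ap 12 X ≤ ∑ l ∈ PP (K * X), ww X l + 18 * X / K := by
  refine Real.tsum_le_of_sum_le (fun l => ?_) fun u => ?_
  · split_ifs
    exacts [tl_nonneg X l, le_rfl]
  rw [← Finset.sum_filter, ← Finset.sum_filter_add_sum_filter_not _ (fun l : ℕ => (l : ℝ) ≤ K * X)]
  refine add_le_add (Finset.sum_le_sum_of_subset_of_nonneg (fun l hl => ?_)
    fun l _ _ => ww_nonneg X l) ?_
  · simp only [PP, Finset.mem_filter, Finset.mem_Ioc] at hl ⊢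
    exact ⟨⟨hl.1.2.1.pos, Nat.le_floor hl.2⟩, hl.1.2⟩
  set v := (u.filter fun l => l.Prime ∧ 12 ∣ l - 1).filter fun l : ℕ => ¬ (l : ℝ) ≤ K * X
  obtain ⟨J, hJ⟩ := pow_unbounded_of_one_lt (((v.sup id : ℕ) : ℝ) / (K * X)) (one_lt_two (α := ℝ))
  rw [div_lt_iff₀ (by positivity)] at hJ
  have h1 := tail_sum (x := K * X) (by positivity) J v fun l hl => by
    have h2 : (l : ℝ) ≤ ((v.sup id : ℕ) : ℝ) := by exact_mod_cast Finset.le_sup (f := id) hl
    simp only [v, Finset.mem_filter, not_le] at hl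
    exact ⟨hl.1.2.1, hl.2, h2.trans hJ.le⟩
  have h2 : ∑ l ∈ v, Real.log l * Wr (l / X) ≤ ∑ l ∈ v, 3 * X ^ 2 * (Real.log l / (l : ℝ) ^ 2) := by
    refine Finset.sum_le_sum fun l hl => ?_
    simp only [v, Finset.mem_filter, not_le] at hl
    have l0 : (0 : ℝ) < l := by exact_mod_cast hl.1.2.1.pos
    have h3 := Wr_le 2 (div_pos l0 hX)
    rw [show (2 : ℝ) ^ 2 / 4 = 1 by norm_num, Real.rpow_neg (by positivity), Real.rpow_two] at h3
    have h4 := Real.exp_one_lt_d9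
    have := Real.log_natCast_nonneg l
    calc _ ≤ Real.log l * (3 * (((l : ℝ) / X) ^ 2)⁻¹) := by
          refine mul_le_mul_of_nonneg_left (h3.trans ?_) this
          gcongr; linarith
      _ = _ := by field_simp
  rw [← Finset.mul_sum] at h2
  refine h2.trans ?_
  have h3 : 6 / (K * X) * (1 - 1 / 2 ^ J) ≤ 6 / (K * X) :=
    mul_le_of_le_one_right (by positivity) (by
      have : (0 : ℝ) ≤ 1 / 2 ^ J := by positivity
      linarith)
  calc _ ≤ 3 * X ^ 2 * (6 / (K * X)) := by gcongr; exact h1.trans h3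
    _ = _ := by field_simp; norm_num

theorem dq_nonneg (q : ℕ) : 0 ≤ dq q := by unfold dq; positivity

theorem dq_sum (s : Finset ℕ) (hs : ∀ q ∈ s, q.Prime) : ∑ q ∈ s, dq q ≤ 41 / 168 := by
  have key : ∀ k : ℕ, ∑ q ∈ Finset.range (2 * k + 5), (if q.Prime then dq q else 0) ≤
      41 / 168 - 1 / 8 / (2 * k + 7 / 2) := fun k => by
    induction k with
    | zero =>
      have e2 : dq 2 = 1 / 8 := by
        rw [dq, show 2 * (Nat.lcm 12 2).totient = 8 by decide]; norm_num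
      have e3 : dq 3 = 1 / 12 := by
        rw [dq, show 3 * (Nat.lcm 12 3).totient = 12 by decide]; norm_num
      simp only [Finset.sum_range_succ, Finset.sum_range_zero]
      norm_num [e2, e3]
    | succ k ih =>
      rw [show 2 * (k + 1) + 5 = 2 * k + 5 + 1 + 1 by ring, Finset.sum_range_succ,
        Finset.sum_range_succ, if_neg (fun h : (2 * k + 5 + 1).Prime => by
          have := h.eq_two_or_odd; omega), add_zero]
      have k0 : (0 : ℝ) ≤ k := Nat.cast_nonneg k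
      have h1 : (if (2 * k + 5).Prime then dq (2 * k + 5) else 0) ≤
          1 / 8 / (2 * k + 7 / 2) - 1 / 8 / (2 * (k + 1 : ℕ) + 7 / 2) := by
        have e : (1 : ℝ) / 8 / (2 * k + 7 / 2) - 1 / 8 / (2 * (k + 1 : ℕ) + 7 / 2) =
            1 / (4 * ((2 * k + 7 / 2) * (2 * k + 11 / 2))) := by
          push_cast; field_simp; ring
        rw [e]
        split_ifs with hq
        · have c2 : (2 * k + 5).Coprime 2 := (Nat.coprime_primes hq Nat.prime_two).2 (by omega)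
          have c3 : (2 * k + 5).Coprime 3 := (Nat.coprime_primes hq Nat.prime_three).2 (by omega)
          have c : Nat.Coprime 12 (2 * k + 5) := ((c2.pow_right 2).mul_right c3).symm
          rw [dq, c.lcm_eq_mul, Nat.totient_mul c, Nat.totient_prime hq,
            show Nat.totient 12 = 4 by decide, show 2 * k + 5 - 1 = 2 * k + 4 by omega]
          push_cast
          refine one_div_le_one_div_of_le (by positivity) ?_
          nlinarith
        · positivity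
      linarith
  have h1 := key (s.sup id)
  have h2 : (0 : ℝ) ≤ 1 / 8 / (2 * ((s.sup id : ℕ) : ℝ) + 7 / 2) := by positivity
  refine le_trans ?_ (h1.trans (by linarith))
  rw [← Finset.sum_filter]
  refine Finset.sum_le_sum_of_subset_of_nonneg (fun q hq => ?_) fun q _ _ => dq_nonneg q
  have : q ≤ s.sup id := Finset.le_sup (f := id) hq
  exact Finset.mem_filter.2 ⟨Finset.mem_range.2 (by omega), hs q hq⟩

end

end Vale.Agent.P016
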