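import Vale.Agent.P016.Defs

namespace Vale.Agent.P016

open scoped Classical

noncomputable section

theorem sum_union_le' {α : Type} [DecidableEq α] (f : α → ℝ) (hf : ∀ x, 0 ≤ f x) (s t : Finset α) :
    ∑ x ∈ s ∪ t, f x ≤ ∑ x ∈ s, f x + ∑ x ∈ t, f x := by
  rw [← Finset.sum_union_inter]
  exact le_add_of_nonneg_right (Finset.sum_nonneg fun x _ => hf x)

theorem sum_biUnion_le' {α ι : Type} [DecidableEq α] (f : α → ℝ) (hf : ∀ x, 0 ≤ f x) (s : Finset ι)
    (t : ι → Finset α) : ∑ x ∈ s.biUnion t, f x ≤ ∑ i ∈ s, ∑ x ∈ t i, f x := by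
  induction s using Finset.induction_on with
  | empty => simp
  | insert i s hi ih =>
    rw [Finset.biUnion_insert, Finset.sum_insert hi]
    exact (sum_union_le' f hf _ _).trans (by gcongr)

theorem sum_primeFactors_le (n : ℕ) : ∑ l ∈ n.primeFactors, Real.log l ≤ Real.log n := by
  rcases eq_or_ne n 0 with rfl | hn
  · simp
  rw [← Real.log_prod fun l hl => by
    exact_mod_cast (Nat.prime_of_mem_primeFactors hl).ne_zero, ← Nat.cast_prod]
  refine Real.log_le_log ?_ ?_
  · exact_mod_cast Finset.prod_pos fun l hl => (Nat.prime_of_mem_primeFactors hl).pos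
  · exact_mod_cast Nat.le_of_dvd (Nat.pos_of_ne_zero hn) (Nat.prod_primeFactors_dvd n)

variable {R : ℕ}

/-- the difference attached to an exponent vector -/
def DD (a : Fin R → ℕ) (g : Fin R → ℤ) : ℤ :=
  ((∏ i, a i ^ (g i).toNat : ℕ) : ℤ) - ((∏ i, a i ^ (-g i).toNat : ℕ) : ℤ)

/-- exponent vectors supported on `I` -/
def box (I : Finset (Fin R)) (T : ℕ) : Finset (Fin R → ℤ) :=
  Fintype.piFinset fun i => if i ∈ I then Finset.Icc (-(T : ℤ)) T else {0}

/-- the exceptional primes -/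
def Ex (a : Fin R → ℕ) (r T : ℕ) : Finset ℕ :=
  ((Finset.powersetCard r Finset.univ).biUnion fun I => (box I T).biUnion fun g =>
    (DD a g).natAbs.primeFactors) ∪ Finset.univ.biUnion fun i => (a i).primeFactors

theorem DD_ne {a : Fin R → ℕ} (h0 : ∀ i, a i ≠ 0)
    (hi : ∀ f : Fin R → ℤ, ∏ i, (a i : ℚ) ^ f i = 1 → f = 0) {g : Fin R → ℤ} (hg : g ≠ 0) :
    DD a g ≠ 0 := fun h => hg (hi g (by
  have h1 : (∏ i, (a i : ℚ) ^ (g i).toNat) = ∏ i, (a i : ℚ) ^ (-g i).toNat := by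
    exact_mod_cast sub_eq_zero.1 h
  have h2 : ∀ i, (a i : ℚ) ^ g i = (a i : ℚ) ^ (g i).toNat / (a i : ℚ) ^ (-g i).toNat := fun i => by
    conv_lhs => rw [← Int.toNat_sub_toNat_neg (g i)]
    rw [zpow_sub₀ (by exact_mod_cast h0 i), zpow_natCast, zpow_natCast]
  simp only [h2, Finset.prod_div_distrib, h1]
  exact div_self (Finset.prod_ne_zero_iff.2 fun i _ => pow_ne_zero _ (by exact_mod_cast h0 i))))

theorem log_DD {a : Fin R → ℕ} (h0 : ∀ i, a i ≠ 0) {t : ℝ} (ht : ∀ i, Real.log (a i) ≤ t) {T : ℕ}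
    {g : Fin R → ℤ} (hg : ∀ i, |g i| ≤ T) : Real.log (DD a g).natAbs ≤ R * (T * t) := by
  have key : ∀ f : Fin R → ℕ, (∀ i, f i ≤ T) → ∏ i, a i ^ f i ≤ ∏ i, a i ^ T := fun f hf =>
    Finset.prod_le_prod' fun i _ => Nat.pow_le_pow_right (Nat.pos_of_ne_zero (h0 i)) (hf i)
  have h1 := key (fun i => (g i).toNat) fun i => by have := abs_le.1 (hg i); omega
  have h2 := key (fun i => (-g i).toNat) fun i => by have := abs_le.1 (hg i); omega
  have h3 : (DD a g).natAbs ≤ ∏ i, a i ^ T := by unfold DD; omega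
  have h4 : Real.log ((∏ i, a i ^ T : ℕ) : ℝ) ≤ R * (T * t) := by
    push_cast
    rw [Real.log_prod fun i _ => pow_ne_zero _ (by exact_mod_cast h0 i)]
    refine (Finset.sum_le_card_nsmul _ _ (T * t) fun i _ => ?_).trans (by simp)
    rw [Real.log_pow]
    exact mul_le_mul_of_nonneg_left (ht i) (Nat.cast_nonneg _)
  rcases Nat.eq_zero_or_pos (DD a g).natAbs with h | h
  · rw [h, Nat.cast_zero, Real.log_zero]
    exact (Real.log_natCast_nonneg _).trans h4
  · exact (Real.log_le_log (by exact_mod_cast h) (by exact_mod_cast h3)).trans h4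

theorem card_box (I : Finset (Fin R)) (T : ℕ) : (box I T).card = (2 * T + 1) ^ I.card := by
  rw [box, Fintype.card_piFinset]
  have : ∀ i, (if i ∈ I then Finset.Icc (-(T : ℤ)) T else {0}).card =
      if i ∈ I then 2 * T + 1 else 1 := fun i => by
    split_ifs
    · rw [Int.card_Icc]; omega
    · rfl
  simp only [this]
  rw [Finset.prod_ite_mem, Finset.univ_inter, Finset.prod_const]

theorem Ex_weight {a : Fin R → ℕ} (h0 : ∀ i, a i ≠ 0) {t : ℝ} (t0 : 0 ≤ t)
    (ht : ∀ i, Real.log (a i) ≤ t) (r T : ℕ) :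
    ∑ l ∈ Ex a r T, Real.log l ≤ 2 ^ R * ((2 * T + 1) ^ r * (R * (T * t))) + R * t := by
  have f0 : ∀ l : ℕ, 0 ≤ Real.log l := Real.log_natCast_nonneg
  refine (sum_union_le' _ f0 _ _).trans (add_le_add ?_ ?_)
  · refine (sum_biUnion_le' _ f0 _ _).trans ((Finset.sum_le_card_nsmul _ _
      ((2 * T + 1) ^ r * (R * (T * t))) fun I hI => ?_).trans ?_)
    · refine (sum_biUnion_le' _ f0 _ _).trans ((Finset.sum_le_card_nsmul _ _
        (R * (T * t)) fun g hg => ?_).trans ?_)
      · refine (sum_primeFactors_le _).trans (log_DD h0 ht fun i => ?_)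
        have := Fintype.mem_piFinset.1 hg i
        split_ifs at this
        · exact abs_le.2 (Finset.mem_Icc.1 this)
        · rw [Finset.mem_singleton.1 this]; simp
      · rw [card_box, (Finset.mem_powersetCard.1 hI).2, nsmul_eq_mul]; push_cast; rfl
    · rw [nsmul_eq_mul]
      refine mul_le_mul_of_nonneg_right ?_ (by positivity)
      rw [Finset.card_powersetCard, Finset.card_univ, Fintype.card_fin]
      exact_mod_cast Nat.choose_le_two_pow R r
  · refine (sum_biUnion_le' _ f0 _ _).trans ((Finset.sum_le_card_nsmul _ _ t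
      fun i _ => (sum_primeFactors_le _).trans (ht i)).trans (by simp))

theorem not_dvd_of_not_Ex {a : Fin R → ℕ} (h0 : ∀ i, a i ≠ 0) {r T l : ℕ} (hl : l.Prime)
    (hE : l ∉ Ex a r T) (i : Fin R) : ¬ l ∣ a i := fun h =>
  hE (Finset.mem_union_right _ (Finset.mem_biUnion.2 ⟨i, Finset.mem_univ _,
    Nat.mem_primeFactors.2 ⟨hl, h, h0 i⟩⟩))

theorem few {a : Fin R → ℕ} (h0 : ∀ i, a i ≠ 0)
    (hi : ∀ f : Fin R → ℤ, ∏ i, (a i : ℚ) ^ f i = 1 → f = 0) {r T l k : ℕ} (hl : l.Prime)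
    (hE : l ∉ Ex a r T) (k0 : 0 < k) (hk : k < (T + 1) ^ r) :
    (Finset.univ.filter fun i => (a i : ZMod l) ^ k = 1).card ≤ r := by
  have := Fact.mk hl
  by_contra hc
  obtain ⟨I, hI, hr⟩ := Finset.exists_subset_card_eq (not_le.1 hc).le
  have hcard : (Polynomial.nthRootsFinset k (1 : ZMod l)).card <
      (Fintype.piFinset fun i => if i ∈ I then Finset.range (T + 1) else {0}).card := by
    rw [Fintype.card_piFinset]
    have : ∀ i, (if i ∈ I then Finset.range (T + 1) else {0}).card =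
        if i ∈ I then T + 1 else 1 := fun i => by
      split_ifs
      · exact Finset.card_range _
      · rfl
    simp only [this]
    rw [Finset.prod_ite_mem, Finset.univ_inter, Finset.prod_const, hr]
    refine lt_of_le_of_lt ?_ hk
    rw [Polynomial.nthRootsFinset_def]
    exact (Multiset.toFinset_card_le _).trans (Polynomial.card_nthRoots k _)
  obtain ⟨f, hf, f', hf', hne, heq⟩ := Finset.exists_ne_map_eq_of_card_lt_of_maps_to hcard
    (f := fun f : Fin R → ℕ => ∏ i, (a i : ZMod l) ^ f i) fun f hf => by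
      rw [Finset.mem_coe, Polynomial.mem_nthRootsFinset k0, ← Finset.prod_pow]
      refine Finset.prod_eq_one fun i _ => ?_
      have h1 := Fintype.mem_piFinset.1 hf i
      split_ifs at h1 with h
      · rw [← pow_mul, mul_comm, pow_mul, (Finset.mem_filter.1 (hI h)).2, one_pow]
      · rw [Finset.mem_singleton.1 h1, pow_zero, one_pow]
  have hg : (fun i => (f i : ℤ) - f' i) ≠ 0 := fun h => hne (funext fun i => by
    have := congrFun h i
    simp only [Pi.zero_apply] at this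
    omega)
  refine hE (Finset.mem_union_left _ (Finset.mem_biUnion.2 ⟨I, Finset.mem_powersetCard.2
    ⟨Finset.subset_univ _, hr⟩, Finset.mem_biUnion.2 ⟨fun i => (f i : ℤ) - f' i, ?_,
      Nat.mem_primeFactors.2 ⟨hl, ?_, Int.natAbs_ne_zero.2 (DD_ne h0 hi hg)⟩⟩⟩))
  · refine Fintype.mem_piFinset.2 fun i => ?_
    have h1 := Fintype.mem_piFinset.1 hf i
    have h2 := Fintype.mem_piFinset.1 hf' i
    split_ifs at h1 h2 ⊢
    · rw [Finset.mem_range] at h1 h2
      rw [Finset.mem_Icc]; omega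
    · rw [Finset.mem_singleton] at h1 h2 ⊢
      omega
  · rw [← Int.natCast_dvd, ← ZMod.intCast_zmod_eq_zero_iff_dvd, DD]
    push_cast
    have hne' : (∏ i, (a i : ZMod l) ^ min (f i) (f' i)) ≠ 0 :=
      Finset.prod_ne_zero_iff.2 fun i _ => pow_ne_zero _ (by
        rw [Ne, ZMod.natCast_eq_zero_iff]; exact not_dvd_of_not_Ex h0 hl hE i)
    rw [sub_eq_zero]
    refine mul_right_cancel₀ hne' ?_
    rw [← Finset.prod_mul_distrib, ← Finset.prod_mul_distrib]
    refine Eq.trans (Finset.prod_congr rfl fun i _ => ?_) (heq.trans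
      (Finset.prod_congr rfl fun i _ => ?_))
    · rw [← pow_add]; congr 1; omega
    · rw [← pow_add]; congr 1; omega

theorem card_large {t : ℝ} (ht : 1 < t) {N n : ℕ} (n0 : n ≠ 0) (hn : (n : ℝ) ≤ t ^ N) :
    (n.primeFactors.filter fun q : ℕ => t ^ 3 < q).card ≤ N := by
  set s := n.primeFactors.filter fun q : ℕ => t ^ 3 < q
  have h1 : ∏ q ∈ s, q ≤ n := Nat.le_of_dvd (Nat.pos_of_ne_zero n0)
    ((Finset.prod_dvd_prod_of_subset _ _ _ (Finset.filter_subset _ _)).trans
      (Nat.prod_primeFactors_dvd n))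
  have h2 : t ^ s.card ≤ ∏ q ∈ s, (q : ℝ) := by
    rw [← Finset.prod_const]
    exact Finset.prod_le_prod (fun _ _ => by linarith) fun q hq =>
      (le_self_pow₀ ht.le (by norm_num)).trans (Finset.mem_filter.1 hq).2.le
  have h3 : (∏ q ∈ s, (q : ℝ)) ≤ n := by rw [← Nat.cast_prod]; exact_mod_cast h1
  exact (pow_le_pow_iff_right₀ ht).1 (h2.trans (h3.trans hn))

theorem exists_root {l q : ℕ} (hl : l.Prime) (hq : q ∣ l - 1) {a : ZMod l} (ha : a ≠ 0)
    (h : a ^ ((l - 1) / q) = 1) : ∃ x : ZMod l, x ^ q = a := by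
  have := Fact.mk hl
  obtain ⟨g, hg⟩ := IsCyclic.exists_monoid_generator (α := (ZMod l)ˣ)
  have ho : orderOf g = l - 1 := by
    rw [orderOf_eq_card_of_forall_mem_powers hg, Nat.card_eq_fintype_card, ZMod.card_units]
  obtain ⟨k, hk⟩ := hg (Units.mk0 a ha)
  simp only at hk
  obtain ⟨c, hc⟩ := hq
  have l1 : 0 < l - 1 := Nat.sub_pos_of_lt hl.one_lt
  have q0 : 0 < q := Nat.pos_of_ne_zero (by rintro rfl; omega)
  have c0 : 0 < c := Nat.pos_of_ne_zero (by rintro rfl; omega)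
  rw [hc, Nat.mul_div_cancel_left _ q0] at h
  have h1 : g ^ (k * c) = 1 := by
    rw [pow_mul, hk]; exact Units.ext (by simpa using h)
  have h2 := orderOf_dvd_of_pow_eq_one h1
  rw [ho, hc] at h2
  obtain ⟨j, rfl⟩ := Nat.dvd_of_mul_dvd_mul_right c0 h2
  refine ⟨(g ^ j : (ZMod l)ˣ), ?_⟩
  rw [← Units.val_pow_eq_pow_val, ← pow_mul, mul_comm j, hk, Units.val_mk0]

end

end Vale.Agent.P016
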