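import Vale.Agent.P016.Ana
import Vale.Agent.P016.Comb

namespace Vale.Agent.P016

open Vale.Agent.P319E
open scoped Classical

noncomputable section

/-- the good primes `l = 1 mod 12` -/
def GG (a : ℕ) (x : ℝ) : Finset ℕ :=
  (PP x).filter fun l => ¬ l ∣ a ∧ ∀ q : ℕ, q.Prime → q ∣ l - 1 → (a : ZMod l) ^ ((l - 1) / q) ≠ 1

/-- bad because of a large prime -/
def Bad {R : ℕ} (a : Fin R → ℕ) (r T : ℕ) (t : ℝ) (i : Fin R) (l : ℕ) : Prop := l ∉ Ex a r T ∧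
    ∃ q ∈ (l - 1).primeFactors.filter fun q : ℕ => t ^ 3 < q, (a i : ZMod l) ^ ((l - 1) / q) = 1

/-- primes which are bad because of a large prime -/
def BB {R : ℕ} (a : Fin R → ℕ) (r T : ℕ) (t x : ℝ) (i : Fin R) : Finset ℕ :=
  (PP x).filter (Bad a r T t i)

theorem mem_PP {x : ℝ} (hx : 0 ≤ x) {l : ℕ} (h : l ∈ PP x) :
    l.Prime ∧ 12 ∣ l - 1 ∧ (l : ℝ) ≤ x := by
  simp only [PP, Finset.mem_filter, Finset.mem_Ioc] at h
  exact ⟨h.2.1, h.2.2, (Nat.le_floor_iff hx).1 h.1.2⟩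

theorem BB_sum {R : ℕ} {a : Fin R → ℕ} (h0 : ∀ i, a i ≠ 0)
    (hi : ∀ f : Fin R → ℤ, ∏ i, (a i : ℚ) ^ f i = 1 → f = 0) {r T : ℕ} {t : ℝ} (ht : 1 < t)
    (hT : t ≤ T) (X : ℝ) :
    ∑ i, ∑ l ∈ BB a r T t (t ^ (r + 3)) i, ww X l ≤ (r + 3) * r * (3 / 2 * t ^ (r + 3)) := by
  have t0 : 0 < t := by linarith
  simp only [BB, Finset.sum_filter]
  rw [Finset.sum_comm]
  have h1 := theta_sum (y := t ^ (r + 3)) (by positivity) (PP (t ^ (r + 3))) fun l hl =>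
    ⟨(mem_PP (by positivity) hl).1, (mem_PP (by positivity) hl).2.2⟩
  refine le_trans ?_ (mul_le_mul_of_nonneg_left h1 (by positivity))
  rw [Finset.mul_sum]
  refine Finset.sum_le_sum fun l hl => ?_
  obtain ⟨lp, -, lx⟩ := mem_PP (by positivity) hl
  rw [← Finset.sum_filter, Finset.sum_const, nsmul_eq_mul]
  refine mul_le_mul ?_ (ww_le X l) (ww_nonneg X l) (by positivity)
  by_cases hE : l ∈ Ex a r T
  · rw [Finset.filter_eq_empty_iff.2 fun i _ h => h.1 hE, Finset.card_empty, Nat.cast_zero]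
    positivity
  have l1 : 0 < l - 1 := Nat.sub_pos_of_lt lp.one_lt
  have lx' : ((l - 1 : ℕ) : ℝ) ≤ t ^ (r + 3) := le_trans (by exact_mod_cast Nat.sub_le l 1) lx
  have h2 := card_large ht l1.ne' lx'
  have h3 := Finset.card_biUnion_le_card_mul ((l - 1).primeFactors.filter fun q : ℕ => t ^ 3 < q)
    (fun q => Finset.univ.filter fun i => (a i : ZMod l) ^ ((l - 1) / q) = 1) r fun q hq => by
      rw [Finset.mem_filter, Nat.mem_primeFactors] at hq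
      obtain ⟨⟨qp, ⟨c, hc⟩, -⟩, hq⟩ := hq
      have c0 : 0 < c := Nat.pos_of_ne_zero (by rintro rfl; omega)
      rw [hc, Nat.mul_div_cancel_left _ qp.pos]
      refine few h0 hi lp hE c0 ?_
      have c1 : (0 : ℝ) < c := by exact_mod_cast c0
      have h4 : t ^ 3 * c < t ^ 3 * t ^ r := by
        calc t ^ 3 * c < q * c := by gcongr
          _ = ((l - 1 : ℕ) : ℝ) := by rw [hc]; push_cast; rfl
          _ ≤ _ := lx'.trans_eq (by ring)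
      have h5 : (c : ℝ) < ((T : ℝ) + 1) ^ r :=
        (lt_of_mul_lt_mul_left h4 (by positivity)).trans_le (by gcongr; linarith)
      exact_mod_cast h5
  have h4 : (Finset.univ.filter fun i => Bad a r T t i l).card ≤ (r + 3) * r := by
    refine le_trans (Finset.card_le_card fun i hi => ?_) (h3.trans (Nat.mul_le_mul_right _ h2))
    obtain ⟨-, q, hq, h5⟩ := (Finset.mem_filter.1 hi).2
    exact Finset.mem_biUnion.2 ⟨q, hq, Finset.mem_filter.2 ⟨Finset.mem_univ _, h5⟩⟩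
  exact_mod_cast h4

theorem cover {R : ℕ} {a : Fin R → ℕ} (h0 : ∀ i, a i ≠ 0) (r T : ℕ) {t x : ℝ} (hx : 0 ≤ x)
    (i : Fin R) : PP x ⊆ GG (a i) x ∪ Ex a r T ∪ BB a r T t x i ∪
      ((Finset.Ioc 0 ⌊t ^ 3⌋₊).filter Nat.Prime).biUnion fun q => (PP x).filter fun l =>
        Nat.lcm 12 q ∣ l - 1 ∧ ¬ l ∣ a i ∧ ∃ y : ZMod l, y ^ q = a i := fun l hl => by
  obtain ⟨lp, l12, -⟩ := mem_PP hx hl
  simp only [Finset.mem_union]
  by_cases hE : l ∈ Ex a r T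
  · exact Or.inl (Or.inl (Or.inr hE))
  have hd := not_dvd_of_not_Ex h0 lp hE i
  by_cases hG : l ∈ GG (a i) x
  · exact Or.inl (Or.inl (Or.inl hG))
  have l1 : 0 < l - 1 := Nat.sub_pos_of_lt lp.one_lt
  simp only [GG, Finset.mem_filter, hl, hd, not_false_eq_true, true_and, not_forall, not_not] at hG
  obtain ⟨q, qp, qd, hq⟩ := hG
  by_cases h : t ^ 3 < q
  · exact Or.inl (Or.inr (Finset.mem_filter.2 ⟨hl, hE, q, Finset.mem_filter.2
      ⟨Nat.mem_primeFactors.2 ⟨qp, qd, l1.ne'⟩, h⟩, hq⟩))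
  · refine Or.inr (Finset.mem_biUnion.2 ⟨q, Finset.mem_filter.2 ⟨Finset.mem_Ioc.2
      ⟨qp.pos, Nat.le_floor (not_lt.1 h)⟩, qp⟩, Finset.mem_filter.2
        ⟨hl, Nat.lcm_dvd l12 qd, hd, exists_root lp qd ?_ hq⟩⟩)
    rwa [Ne, ZMod.natCast_eq_zero_iff]

theorem core_num {M X Y t A S G E B Q C₁ C₂ C₃ : ℝ} (a1 : X / 2 ≤ M) (a2 : M / 4 - C₂ * Y ≤ A)
    (a3 : A ≤ S + X / 2000) (a4 : S ≤ G + E + B + Q) (a5 : E ≤ C₃ * (Y * t ^ 10))
    (a6 : B ≤ X / 2000) (a7 : Q ≤ M * (41 / 168) + 2 * C₁ * (Y * t ^ 10))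
    (a8 : C₂ * Y ≤ C₂ * (Y * t ^ 10)) (a9 : (C₃ + 2 * C₁ + C₂) * (Y * t ^ 10) ≤ X / 2000)
    (x0 : 0 ≤ X) : X / 1000 ≤ G := by
  nlinarith

theorem core' (M : ℕ) (hM : ((M + 8 + 3 : ℕ) : ℝ) * (1999 / 2000) = M) :
    ∃ (R : ℕ) (t₀ : ℝ), ∀ t, t₀ ≤ t → ∀ a : Fin R → ℕ, (∀ i, Adm (a i)) →
    (∀ f : Fin R → ℤ, ∏ i, (a i : ℚ) ^ f i = 1 → f = 0) → (∀ i, Real.log (a i) ≤ t) →
    ∃ i, t ^ (M + 8 + 3) / 36000000 ≤
      (GG (a i) (t ^ (M + 8 + 3))).card * Real.log (t ^ (M + 8 + 3)) := by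
  obtain ⟨C₁, c1, H1⟩ := sq_le
  obtain ⟨C₂, c2, H2⟩ := ap_ge
  obtain ⟨r, hr⟩ : ∃ r, r = M + 8 := ⟨_, rfl⟩
  obtain ⟨R, hR⟩ : ∃ R : ℕ, R = (r + 3) * r * 108000000 + 1 := ⟨_, rfl⟩
  obtain ⟨C₃, hC₃⟩ : ∃ C : ℝ, C = 2 ^ R * 5 ^ r * R * 2 + R := ⟨_, rfl⟩
  have c3 : 0 ≤ C₃ := by rw [hC₃]; positivity
  refine ⟨R, 36000 + 72000000 * (C₃ + 2 * C₁ + C₂), fun t ht a ha hi hl => ?_⟩
  have t1 : 36000 ≤ t := le_trans (le_add_of_nonneg_right (by positivity)) ht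
  have t0 : 0 < t := by linarith
  have t2 : 1 < t := by linarith
  have h0 : ∀ i, a i ≠ 0 := fun i => by have := (ha i).1; omega
  rw [← hr]
  obtain ⟨Y, hY⟩ : ∃ Y, Y = t ^ M := ⟨_, rfl⟩
  have y1 : 1 ≤ Y := hY ▸ one_le_pow₀ t2.le
  have e1 : t ^ r = Y * t ^ 8 := by rw [hr, hY, pow_add]
  have e2 : t ^ (r + 3) = Y * t ^ 11 := by rw [pow_add, e1]; ring
  obtain ⟨x, hx⟩ : ∃ x, x = t ^ (r + 3) := ⟨_, rfl⟩
  obtain ⟨X, hX⟩ : ∃ X, X = x / 36000 := ⟨_, rfl⟩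
  have e3 : 36000 * X = x := by rw [hX]; ring
  have p10 : 1 ≤ t ^ 10 := one_le_pow₀ t2.le
  have p11 : t ≤ Y * t ^ 10 := (le_self_pow₀ t2.le (by norm_num)).trans
    (le_mul_of_one_le_left (by positivity) y1)
  have e4 : x = Y * t ^ 10 * t := by rw [hx, e2]; ring
  have X1 : 1 ≤ X := by
    rw [hX, le_div_iff₀ (by norm_num), e4]; nlinarith
  have x0 : 0 ≤ x := by linarith
  have hσ : X ^ (1999 / 2000 : ℝ) ≤ Y := by
    refine (Real.rpow_le_rpow (by linarith) (show X ≤ x by linarith) (by norm_num)).trans_eq ?_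
    rw [hx, ← Real.rpow_natCast, ← Real.rpow_mul t0.le, hr, hM, Real.rpow_natCast, hY]
  have hT : t ≤ (⌈t⌉₊ : ℕ) := Nat.le_ceil t
  have hT2 : ((⌈t⌉₊ : ℕ) : ℝ) ≤ 2 * t := by have := Nat.ceil_lt_add_one t0.le; linarith
  generalize ⌈t⌉₊ = T at hT hT2
  have b1 := BB_sum h0 hi (r := r) t2 hT X
  rw [← hx] at b1 ⊢
  have R0 : (0 : ℝ) < R := by exact_mod_cast (by rw [hR]; exact Nat.succ_pos _ : 0 < R)
  obtain ⟨i, -, b2⟩ := Finset.exists_le_of_sum_le (s := Finset.univ)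
    (f := fun i : Fin R => ∑ l ∈ BB a r T t x i, ww X l) (g := fun _ => X / 2000)
    ⟨⟨0, by exact_mod_cast R0⟩, Finset.mem_univ _⟩ (b1.trans (by
      rw [Finset.sum_const, Finset.card_univ, Fintype.card_fin, nsmul_eq_mul, hR, ← e3]
      push_cast
      nlinarith))
  refine ⟨i, ?_⟩
  have a3 := ap_le (X := X) (K := 36000) (by linarith) (by norm_num)
  rw [e3] at a3
  have w0 := ww_nonneg X
  have a4 := (Finset.sum_le_sum_of_subset_of_nonneg (cover h0 r T (t := t) x0 i)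
    fun l _ _ => w0 l).trans ((sum_union_le' _ w0 _ _).trans (add_le_add
      ((sum_union_le' _ w0 _ _).trans (add_le_add (sum_union_le' _ w0 _ _) le_rfl))
      (sum_biUnion_le' _ w0 _ _)))
  have a5 : ∑ l ∈ Ex a r T, ww X l ≤ C₃ * (Y * t ^ 10) := by
    refine (Finset.sum_le_sum fun l _ => ww_le X l).trans ((Ex_weight h0 t0.le hl r T).trans ?_)
    have : ((2 * T + 1 : ℝ)) ^ r ≤ (5 * t) ^ r := by gcongr; linarith
    calc _ ≤ 2 ^ R * ((5 * t) ^ r * (R * (2 * t * t))) + R * (Y * t ^ 10) := by gcongr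
      _ = _ := by rw [mul_pow, e1, hC₃]; ring
  have a7 : ∑ q ∈ (Finset.Ioc 0 ⌊t ^ 3⌋₊).filter Nat.Prime, ∑ l ∈ (PP x).filter fun l =>
        Nat.lcm 12 q ∣ l - 1 ∧ ¬ l ∣ a i ∧ ∃ y : ZMod l, y ^ q = a i, ww X l ≤
      Main X * (41 / 168) + 2 * C₁ * (Y * t ^ 10) := by
    have m0 : 0 ≤ Main X := le_trans (by positivity) (main_ge X1)
    refine (Finset.sum_le_sum (g := fun q => Main X * dq q + C₁ * (t ^ 3) ^ 2 * (2 * t) * Y)
      fun q hq => ?_).trans ?_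
    · rw [Finset.mem_filter, Finset.mem_Ioc] at hq
      refine (H1 (a i) q X (ha i) hq.2 X1 _ fun l hl' => ?_).trans ?_
      · rw [Finset.mem_filter] at hl'
        exact ⟨(mem_PP x0 hl'.1).1, hl'.2⟩
      · have q1 : (q : ℝ) ≤ t ^ 3 := (Nat.le_floor_iff (by positivity)).1 hq.1.2
        have q2 : 1 + Real.log (a i) ≤ 2 * t := by linarith [hl i]
        have q3 : 0 ≤ 1 + Real.log (a i) := by have := Real.log_natCast_nonneg (a i); linarith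
        gcongr
    · rw [Finset.sum_add_distrib, ← Finset.mul_sum, Finset.sum_const, nsmul_eq_mul]
      refine add_le_add (mul_le_mul_of_nonneg_left
        (dq_sum _ fun q hq => (Finset.mem_filter.1 hq).2) m0) ?_
      have q1 : (((Finset.Ioc 0 ⌊t ^ 3⌋₊).filter Nat.Prime).card : ℝ) ≤ t ^ 3 := by
        refine le_trans ?_ (Nat.floor_le (by positivity))
        exact_mod_cast (Finset.card_filter_le _ _).trans (by simp)
      calc _ ≤ t ^ 3 * (C₁ * (t ^ 3) ^ 2 * (2 * t) * Y) := by gcongr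
        _ = _ := by ring
  have a2 := H2 X X1
  have a2' : Main X / 4 - C₂ * Y ≤ Ap 12 X := by
    have := mul_le_mul_of_nonneg_left hσ c2.le
    linarith
  have fin := core_num (main_ge X1) a2' (a3.trans_eq (by ring)) a4 a5 b2 a7
    (mul_le_mul_of_nonneg_left (le_mul_of_one_le_right (by linarith) p10) c2.le) (by
      rw [hX, e4]
      have : 0 ≤ Y * t ^ 10 := by positivity
      nlinarith) (by linarith)
  refine le_trans (by rw [hX] at fin; linarith) (fin.trans ?_)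
  rw [← nsmul_eq_mul]
  refine Finset.sum_le_card_nsmul _ _ _ fun l hl' => (ww_le X l).trans ?_
  obtain ⟨lp, -, lx⟩ := mem_PP x0 (Finset.mem_filter.1 hl').1
  exact Real.log_le_log (by exact_mod_cast lp.pos) lx

theorem core : ∃ (R : ℕ) (x₀ : ℝ), 1 < x₀ ∧ ∀ x, x₀ ≤ x → ∀ a : Fin R → ℕ, (∀ i, Adm (a i)) →
    (∀ f : Fin R → ℤ, ∏ i, (a i : ℚ) ^ f i = 1 → f = 0) →
    (∀ i, Real.log (a i) ≤ x ^ (1 / 22000 : ℝ)) →
    ∃ i, 1 / 36000000 * x / Real.log x ≤ (GG (a i) x).card := by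
  obtain ⟨R, t₀, H⟩ := core' 21989 (by norm_num)
  obtain ⟨N, hN⟩ : ∃ N : ℕ, N = 21989 + 8 + 3 := ⟨_, rfl⟩
  rw [← hN] at H
  have N0 : N ≠ 0 := by omega
  have e : (1 / 22000 : ℝ) = (N : ℝ)⁻¹ := by rw [hN]; norm_num
  refine ⟨R, (max t₀ 2) ^ N, one_lt_pow₀ (lt_of_lt_of_le one_lt_two (le_max_right _ _)) N0,
    fun x hx a ha hi hl => ?_⟩
  have m0 : 0 ≤ max t₀ 2 := le_trans zero_le_two (le_max_right _ _)
  have x1 : 1 < x := (one_lt_pow₀ (lt_of_lt_of_le one_lt_two (le_max_right _ _)) N0).trans_le hx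
  rw [e] at hl
  have h1 : (x ^ (N : ℝ)⁻¹) ^ N = x := Real.rpow_inv_natCast_pow (by linarith) N0
  have h2 : t₀ ≤ x ^ (N : ℝ)⁻¹ := (le_max_left t₀ 2).trans
    ((pow_le_pow_iff_left₀ m0 (by positivity) N0).1 (by rwa [h1]))
  obtain ⟨i, h3⟩ := H _ h2 a ha hi hl
  rw [h1] at h3
  exact ⟨i, by rw [div_le_iff₀ (Real.log_pos x1)]; linarith⟩

end

end Vale.Agent.P016
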