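import Mathlib

namespace Vale.Agent.P016

/-- `N_a(x)`: the number of primes `p ≤ x`, `p ∤ a`, modulo which `a` is a primitive root. -/
noncomputable def NA (a : ℤ) (x : ℝ) : ℕ :=
  {p : ℕ | p.Prime ∧ (p : ℝ) ≤ x ∧ ¬ (p : ℤ) ∣ a ∧ orderOf (a : ZMod p) = p - 1}.ncard

/-- Admissible natural numbers: at least `2`, not a perfect power, not three times a square. -/
def Adm (a : ℕ) : Prop :=
  2 ≤ a ∧ (∀ b k : ℕ, 2 ≤ k → a ≠ b ^ k) ∧ ¬ IsSquare (3 * a)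

/-- Multiplicative independence. -/
def MulIndep {R : ℕ} (a : Fin R → ℤ) : Prop :=
  ∀ f : Fin R → ℤ, ∏ i, (a i : ℚ) ^ f i = 1 → f = 0

end Vale.Agent.P016
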