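import Vale.Agent.P016.Defs
import Vale.Agent.P319E.Fin

namespace Vale.Agent.P016

open NumberField Complex MeasureTheory Filter Topology IsDedekindDomain Vale.Agent.P319E
open scoped Classical Real nonZeroDivisors

noncomputable section

theorem Adm.not_pow {a q : ℕ} (h : Adm a) (hq : 2 ≤ q) (b : ℚ) : b ^ q ≠ a := fun hb => by
  have h1 : b.den ^ q = 1 := by rw [← Rat.den_pow, hb, Rat.den_natCast]
  have h2 : b.den = 1 := (Nat.pow_eq_one.1 h1).resolve_right (by omega)
  have h3 : b.num ^ q = a := by rw [← Rat.num_pow, hb, Rat.num_natCast]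
  have h4 := congrArg Int.natAbs h3
  rw [Int.natAbs_pow, Int.natAbs_natCast] at h4
  exact h.2.1 _ q hq h4.symm

theorem not_mem_cyc {p : ℕ} (hp : Adm p) {z a : ℂ} (hz : z ^ 12 = 1) (iz : IsIntegral ℚ z)
    (ha : a ^ 2 = p) : a ∉ IntermediateField.adjoin ℚ ({z} : Set ℂ) := fun h => by
  have s3 : (√3 : ℝ) * √3 = 3 := Real.mul_self_sqrt (by norm_num)
  let P : ℂ → Prop := fun b => ∃ u v u' v' : ℚ, b.re = u + v * √3 ∧ b.im = u' + v' * √3
  have Pm : ∀ x y, P x → P y → P (x * y) := by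
    rintro x y ⟨u, v, u', v', h1, h2⟩ ⟨s, t, s', t', h3, h4⟩
    refine ⟨u * s + 3 * v * t - u' * s' - 3 * v' * t', u * t + v * s - u' * t' - v' * s',
      u * s' + 3 * v * t' + u' * s + 3 * v' * t, u * t' + v * s' + u' * t + v' * s, ?_, ?_⟩
    · rw [mul_re, h1, h2, h3, h4]; push_cast
      linear_combination ((v : ℝ) * t - v' * t') * s3
    · rw [mul_im, h1, h2, h3, h4]; push_cast
      linear_combination ((v : ℝ) * t' + v' * t) * s3
  have P1 : P 1 := ⟨1, 0, 0, 0, by simp, by simp⟩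
  have Pz : P z := by
    have h0 := Complex.isPrimitiveRoot_exp 12 (by norm_num)
    obtain ⟨i, -, hi⟩ := h0.eq_pow_of_pow_eq_one hz
    have e : (2 * π * I / (12 : ℕ) : ℂ) = ((π / 6 : ℝ) : ℂ) * I := by push_cast; ring
    have Pw : P (cexp (2 * π * I / (12 : ℕ))) := by
      refine ⟨0, 1 / 2, 1 / 2, 0, ?_, ?_⟩
      · rw [e, exp_ofReal_mul_I_re, Real.cos_pi_div_six]; push_cast; ring
      · rw [e, exp_ofReal_mul_I_im, Real.sin_pi_div_six]; push_cast; ring
    have : ∀ i : ℕ, P (cexp (2 * π * I / (12 : ℕ)) ^ i) := fun i => by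
      induction i with
      | zero => simpa using P1
      | succ i ih => rw [pow_succ]; exact Pm _ _ ih Pw
    exact hi ▸ this i
  have Pa : P a := by
    have h1 : a ∈ Algebra.adjoin ℚ ({z} : Set ℂ) := by
      rw [← IntermediateField.adjoin_simple_toSubalgebra_of_isAlgebraic iz.isAlgebraic]
      exact h
    have : ∀ x ∈ Algebra.adjoin ℚ ({z} : Set ℂ), P x := fun x hx => by
      induction hx using Algebra.adjoin_induction with
      | mem x hx => rw [Set.mem_singleton_iff.1 hx]; exact Pz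
      | algebraMap r => exact ⟨r, 0, 0, 0, by simp, by simp⟩
      | add x y _ _ hx hy =>
        obtain ⟨u, v, u', v', h1, h2⟩ := hx
        obtain ⟨s, t, s', t', h3, h4⟩ := hy
        refine ⟨u + s, v + t, u' + s', v' + t', ?_, ?_⟩
        · rw [add_re, h1, h3]; push_cast; ring
        · rw [add_im, h2, h4]; push_cast; ring
      | mul x y _ _ hx hy => exact Pm _ _ hx hy
    exact this a h1
  obtain ⟨u, v, -, -, h1, -⟩ := Pa
  have p0 : (0 : ℝ) < p := by have := hp.1; positivity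
  have r1 := congrArg Complex.re ha
  have r2 := congrArg Complex.im ha
  simp only [sq, mul_re, mul_im, natCast_re, natCast_im] at r1 r2
  have i0 : a.im = 0 := by
    by_contra hc
    have : a.re = 0 := by
      have : a.re * a.im = 0 := by linarith
      exact (mul_eq_zero.1 this).resolve_right hc
    rw [this] at r1
    nlinarith [mul_self_nonneg a.im]
  rw [i0, h1] at r1
  have e1 : ((2 * u * v : ℚ) : ℝ) * √3 = ((p - u ^ 2 - 3 * v ^ 2 : ℚ) : ℝ) := by
    push_cast; linear_combination r1 - (v : ℝ) ^ 2 * s3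
  have uv : 2 * u * v = 0 := by
    by_contra hc
    have i3 : Irrational (√3) := by simpa using Nat.prime_three.irrational_sqrt
    exact (i3.ratCast_mul hc).ne_rat _ e1
  rw [uv] at e1
  have e2 : (p : ℚ) - u ^ 2 - 3 * v ^ 2 = 0 := by
    have : (((p : ℚ) - u ^ 2 - 3 * v ^ 2 : ℚ) : ℝ) = 0 := by rw [← e1]; simp
    exact_mod_cast this
  rcases mul_eq_zero.1 uv with h2 | h2
  · have u0 : u = 0 := by linarith
    refine hp.2.2 (Rat.isSquare_natCast_iff.1 ⟨3 * v, ?_⟩)
    push_cast; rw [u0] at e2; linear_combination 3 * e2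
  · exact hp.not_pow le_rfl u (by rw [h2] at e2; linarith)

theorem fieldsA {p q : ℕ} (hp : Adm p) (hq : q.Prime) :
    ∃ (L : IntermediateField ℚ ℂ) (_ : NumberField L) (ζ α : L),
      IsGalois ℚ L ∧ IsPrimitiveRoot ζ (Nat.lcm 12 q) ∧
      α ^ q = p ∧ (∀ τ : L ≃ₐ[ℚ] L, τ ζ = ζ → τ α = α → τ = 1) ∧
      q * (Nat.lcm 12 q).totient ≤ Module.finrank ℚ L ∧ Module.finrank ℚ L ≤ 4 * q ^ 2 ∧
      lD L ≤ 3 * (Module.finrank ℚ L : ℝ) ^ 2 * (1 + Real.log p) := by
  have p0 : p ≠ 0 := by have := hp.1; omega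
  have t1 : (Nat.lcm 12 q).totient ≤ 4 * q := by
    by_cases hq2 : q = 2
    · subst hq2; decide
    · exact (fld_tot hq hq2).1
  have t2 : q ≠ 2 → q.Coprime (Nat.lcm 12 q).totient := fun hq2 => (fld_tot hq hq2).2
  have t3 : q = 2 → Nat.lcm 12 q = 12 := fun hq2 => by subst hq2; decide
  have hqm : q ∣ Nat.lcm 12 q := Nat.dvd_lcm_right _ _
  have m0 : 0 < Nat.lcm 12 q := Nat.lcm_pos (by norm_num) hq.pos
  generalize Nat.lcm 12 q = m at *
  have : NeZero m := ⟨m0.ne'⟩
  obtain ⟨z, hz⟩ : ∃ z : ℂ, IsPrimitiveRoot z m := ⟨_, Complex.isPrimitiveRoot_exp m m0.ne'⟩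
  obtain ⟨a, ha⟩ := IsAlgClosed.exists_pow_nat_eq (p : ℂ) hq.pos
  have a0 : a ≠ 0 := fun h => by
    rw [h, zero_pow hq.ne_zero, eq_comm, Nat.cast_eq_zero] at ha
    exact p0 ha
  have iz : IsIntegral ℚ z := IsIntegral.of_pow m0 (hz.pow_eq_one ▸ isIntegral_one)
  have ia : IsIntegral ℚ a := IsIntegral.of_pow hq.pos (ha ▸ isIntegral_natCast p)
  have fK := IntermediateField.adjoin.finiteDimensional iz
  have fL : FiniteDimensional ℚ (IntermediateField.adjoin ℚ ({z, a} : Set ℂ)) :=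
    IntermediateField.finiteDimensional_adjoin fun x hx => by
      rcases hx with rfl | rfl
      exacts [iz, ia]
  have nL : NumberField (IntermediateField.adjoin ℚ ({z, a} : Set ℂ)) := ⟨⟩
  have zL : z ∈ IntermediateField.adjoin ℚ ({z, a} : Set ℂ) :=
    IntermediateField.subset_adjoin _ _ (by simp)
  have aL : a ∈ IntermediateField.adjoin ℚ ({z, a} : Set ℂ) :=
    IntermediateField.subset_adjoin _ _ (by simp)
  have p2 : IsPrimitiveRoot (⟨z, zL⟩ : IntermediateField.adjoin ℚ ({z, a} : Set ℂ)) m :=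
    IsPrimitiveRoot.coe_submonoidClass_iff.1 hz
  have p3 : (⟨a, aL⟩ : IntermediateField.adjoin ℚ ({z, a} : Set ℂ)) ^ q = p :=
    Subtype.ext (by simpa using ha)
  have tL : Algebra.adjoin ℚ
      ({⟨z, zL⟩, ⟨a, aL⟩} : Set (IntermediateField.adjoin ℚ ({z, a} : Set ℂ))) = ⊤ :=
    fld_top (by simp [Set.image_insert_eq])
  have d1 : Module.finrank ℚ (IntermediateField.adjoin ℚ ({z} : Set ℂ)) = m.totient := by
    rw [IntermediateField.adjoin.finrank iz, ← Polynomial.cyclotomic_eq_minpoly_rat hz m0,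
      Polynomial.natDegree_cyclotomic]
  have d2 : Module.finrank ℚ (IntermediateField.adjoin ℚ ({a} : Set ℂ)) = q := by
    have irr : Irreducible (Polynomial.X ^ q - Polynomial.C (p : ℚ)) :=
      X_pow_sub_C_irreducible_of_prime hq fun b hb => hp.not_pow hq.two_le b hb
    rw [IntermediateField.adjoin.finrank ia, ← minpoly.eq_of_irreducible_of_monic irr
      (by simp [ha]) (Polynomial.monic_X_pow_sub_C _ hq.ne_zero), Polynomial.natDegree_X_pow_sub_C]
  have d3 : Module.finrank ℚ (IntermediateField.adjoin ℚ ({z, a} : Set ℂ)) ≤ 4 * q ^ 2 := by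
    rw [← Set.singleton_union, IntermediateField.adjoin_union]
    refine (IntermediateField.finrank_sup_le _ _).trans ?_
    rw [d1, d2, sq, ← mul_assoc]
    exact Nat.mul_le_mul_right _ t1
  have d4 : q * m.totient ≤
      Module.finrank ℚ (IntermediateField.adjoin ℚ ({z, a} : Set ℂ)) := by
    have hle := IntermediateField.adjoin.mono ℚ ({z} : Set ℂ) {z, a} (by simp)
    have e1 := IntermediateField.finrank_dvd_of_le_right hle
    have e2 := IntermediateField.finrank_dvd_of_le_right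
      (IntermediateField.adjoin.mono ℚ ({a} : Set ℂ) {z, a} (by simp))
    rw [d2] at e2
    by_cases hq2 : q = 2
    · have hne : Module.finrank ℚ (IntermediateField.adjoin ℚ ({z} : Set ℂ)) ≠
          Module.finrank ℚ (IntermediateField.adjoin ℚ ({z, a} : Set ℂ)) := fun h => by
        have h1 := IntermediateField.eq_of_le_of_finrank_eq hle h
        rw [← h1] at aL
        exact not_mem_cyc hp (t3 hq2 ▸ hz.pow_eq_one) iz (hq2 ▸ ha) aL
      obtain ⟨c, hc⟩ := e1
      have hpos : 0 < Module.finrank ℚ (IntermediateField.adjoin ℚ ({z, a} : Set ℂ)) :=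
        Module.finrank_pos
      rw [hc] at hne hpos ⊢
      rw [d1] at hne hpos ⊢
      have c0 : c ≠ 0 := by rintro rfl; simp at hpos
      have c1 : c ≠ 1 := by rintro rfl; simp at hne
      rw [hq2, mul_comm]
      exact Nat.mul_le_mul_left _ (by omega)
    · rw [d1] at e1
      exact Nat.le_of_dvd Module.finrank_pos ((t2 hq2).mul_dvd_of_dvd_of_dvd e2 e1)
  have nor : Normal ℚ (IntermediateField.adjoin ℚ ({z, a} : Set ℂ)) := by
    have f1 := Polynomial.monic_X_pow_sub_C (1 : ℚ) m0.ne'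
    have f2 := Polynomial.monic_X_pow_sub_C (p : ℚ) hq.ne_zero
    have e : IntermediateField.adjoin ℚ ({z, a} : Set ℂ) = IntermediateField.adjoin ℚ
        (((Polynomial.X ^ m - Polynomial.C 1) * (Polynomial.X ^ q - Polynomial.C (p : ℚ))).rootSet
          ℂ) := by
      refine le_antisymm (IntermediateField.adjoin.mono _ _ _ fun x hx => ?_)
        (IntermediateField.adjoin_le_iff.2 fun x hx => ?_)
      · rw [(f1.mul f2).mem_rootSet]
        rcases hx with rfl | rfl
        · simp [hz.pow_eq_one]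
        · simp [ha]
      · rw [(f1.mul f2).mem_rootSet] at hx
        have hx' : x ^ m = 1 ∨ x ^ q = p := by simpa [sub_eq_zero] using hx
        rcases hx' with h | h
        · obtain ⟨i, -, rfl⟩ := hz.eq_pow_of_pow_eq_one h
          exact pow_mem zL i
        · obtain ⟨c, hc⟩ := hqm
          obtain ⟨i, -, hi⟩ := hz.eq_pow_of_pow_eq_one (ξ := x / a) (by
            rw [hc, pow_mul, div_pow, h, ← ha, div_self (pow_ne_zero _ a0), one_pow])
          rw [← div_mul_cancel₀ x a0, ← hi]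
          exact mul_mem (pow_mem zL i) aL
    rw [e]
    exact Normal.of_isSplittingField _
      (hFEp := IntermediateField.adjoin_rootSet_isSplittingField (IsAlgClosed.splits _))
  refine ⟨_, nL, ⟨z, zL⟩, ⟨a, aL⟩, ⟨⟩, p2, p3, fun τ h1 h2 => ?_, d4, d3,
    fld_lD m0 hq.pos (Nat.one_le_iff_ne_zero.2 p0) p2.pow_eq_one p3 tL⟩
  refine AlgEquiv.coe_toAlgHom_injective (AlgHom.ext_of_adjoin_eq_top tL ?_)
  rintro x (rfl | rfl)
  exacts [h1, h2]

theorem splitA {L : Type} [Field L] [NumberField L] [IsGalois ℚ L] {m p q l : ℕ} {ζ α : L}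
    (hq : q.Prime) (hl : l.Prime) (hqm : q ∣ m) (hm : m ∣ l - 1) (lp : ¬l ∣ p)
    (hζ : ζ ^ m = 1) (hα : α ^ q = p)
    (hgen : ∀ τ : L ≃ₐ[ℚ] L, τ ζ = ζ → τ α = α → τ = 1)
    (hpow : ∃ x : ZMod l, x ^ q = p) :
    Module.finrank ℚ L ≤ {P : HeightOneSpectrum (𝓞 L) | Ideal.absNorm P.asIdeal = l}.ncard := by
  have := Fact.mk hl
  have l1 : 0 < l - 1 := Nat.sub_pos_of_lt hl.one_lt
  have m0 : 0 < m := Nat.pos_of_dvd_of_pos hm l1
  have lm : ¬l ∣ m := fun h => by
    have := Nat.le_of_dvd l1 (h.trans hm)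
    omega
  have lq : ¬l ∣ q := fun h => lm (h.trans hqm)
  obtain ⟨z, rfl⟩ : ∃ z : 𝓞 L, (z : L) = ζ :=
    ⟨⟨ζ, IsIntegral.of_pow m0 (hζ ▸ isIntegral_one)⟩, rfl⟩
  obtain ⟨a, rfl⟩ : ∃ a : 𝓞 L, (a : L) = α :=
    ⟨⟨α, IsIntegral.of_pow hq.pos (hα ▸ isIntegral_natCast p)⟩, rfl⟩
  have hz : z ^ m = 1 := RingOfIntegers.ext (by simpa using hζ)
  have ha : a ^ q = p := RingOfIntegers.ext (by simpa using hα)
  have hs : ∀ (τ : L ≃ₐ[ℚ] L) (k : ℕ), τ • (k : 𝓞 L) = k := fun τ k =>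
    map_natCast (MulSemiringAction.toRingHom _ (𝓞 L) τ) k
  have key : ∀ Q : Ideal (𝓞 L), Q.IsPrime → (l : 𝓞 L) ∈ Q → ∀ τ τ' : L ≃ₐ[ℚ] L,
      τ • z - τ' • z ∈ Q → τ • a - τ' • a ∈ Q → τ = τ' := by
    intro Q hQ hlQ τ τ' h1 h2
    have e1 := split_eq hQ (k := m) (by rw [← smul_pow', ← smul_pow', hz, smul_one, smul_one]) h1
      (split_nat hQ hl hlQ lm) (by
        rw [← smul_pow', hz, smul_one]
        exact (Ideal.ne_top_iff_one _).1 hQ.ne_top)
    have e2 := split_eq hQ (k := q) (by rw [← smul_pow', ← smul_pow', ha, hs, hs]) h2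
      (split_nat hQ hl hlQ lq) (by
        rw [← smul_pow', ha, hs]
        exact split_nat hQ hl hlQ lp)
    have f1 : τ z = τ' z := congrArg (fun x : 𝓞 L => (x : L)) e1
    have f2 : τ a = τ' a := congrArg (fun x : 𝓞 L => (x : L)) e2
    have := hgen (τ'⁻¹ * τ) (by simp [f1]) (by simp [f2])
    exact (inv_mul_eq_one.1 this).symm
  have nrm : ∀ P : HeightOneSpectrum (𝓞 L), (l : 𝓞 L) ∈ P.asIdeal →
      Ideal.absNorm P.asIdeal = l ∧ ∀ x : 𝓞 L, ∃ n : ℕ, x - n ∈ P.asIdeal := by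
    intro P hP
    have hQ := P.isPrime
    have := P.isMaximal
    have : Finite (𝓞 L ⧸ P.asIdeal) := Ideal.finiteQuotientOfFreeOfNeBot _ P.ne_bot
    letI := Ideal.Quotient.field P.asIdeal
    have := Fintype.ofFinite (𝓞 L ⧸ P.asIdeal)
    have : CharP (𝓞 L ⧸ P.asIdeal) l := (CharP.charP_iff_prime_eq_zero hl).2 (by
      rw [← map_natCast (Ideal.Quotient.mk P.asIdeal), Ideal.Quotient.eq_zero_iff_mem]
      exact hP)
    obtain ⟨σ, hσ⟩ := IsArithFrobAt.exists_of_isInvariant ℤ (L ≃ₐ[ℚ] L) P.asIdeal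
    have hu : P.asIdeal.under ℤ = Ideal.span {(l : ℤ)} := by
      refine ((Int.ideal_span_isMaximal_of_prime l).eq_of_le (Ideal.IsPrime.ne_top inferInstance)
        ?_).symm
      rw [Ideal.span_singleton_le_iff_mem, Ideal.mem_under]
      simpa using hP
    have fr : ∀ x : 𝓞 L, Ideal.Quotient.mk P.asIdeal (σ • x) =
        Ideal.Quotient.mk P.asIdeal x ^ l := fun x => by
      have := hσ.mk_apply x
      rwa [hu, Int.card_ideal_quot] at this
    have pl : ∀ y : 𝓞 L ⧸ P.asIdeal, y ^ (l - 1) = 1 → y ^ l = y := fun y hy => by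
      rw [← Nat.sub_add_cancel hl.one_le, pow_succ, hy, one_mul]
    have σ1 : σ = 1 := by
      refine key _ hQ hP _ _ ?_ ?_
      · rw [one_smul, ← Ideal.Quotient.eq, fr]
        obtain ⟨c, hc⟩ := hm
        exact pl _ (by rw [hc, pow_mul, ← map_pow, hz, map_one, one_pow])
      · rw [one_smul, ← Ideal.Quotient.eq, fr]
        obtain ⟨c, hc⟩ := hqm.trans hm
        obtain ⟨x, hx⟩ := hpow
        have x0 : x ≠ 0 := fun h => by
          rw [h, zero_pow hq.ne_zero, eq_comm, ZMod.natCast_eq_zero_iff] at hx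
          exact lp hx
        refine pl _ ?_
        have := congrArg (ZMod.castHom (dvd_refl l) (𝓞 L ⧸ P.asIdeal))
          (ZMod.pow_card_sub_one_eq_one x0)
        rw [hc, pow_mul, hx, map_pow, map_natCast, map_one] at this
        rw [hc, pow_mul, ← map_pow, ha, map_natCast, this]
    have all : ∀ y : 𝓞 L ⧸ P.asIdeal, y ^ l = y := fun y => by
      obtain ⟨x, rfl⟩ := Ideal.Quotient.mk_surjective y
      rw [← fr, σ1, one_smul]
    have c1 : Fintype.card (𝓞 L ⧸ P.asIdeal) ≤ l := by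
      have := Polynomial.card_le_degree_of_subset_roots
        (p := (Polynomial.X ^ l - Polynomial.X : Polynomial (𝓞 L ⧸ P.asIdeal))) (Z := Finset.univ)
        fun y _ => by
          rw [Polynomial.mem_roots (FiniteField.X_pow_card_sub_X_ne_zero _ hl.one_lt)]
          simp [all y]
      rwa [FiniteField.X_pow_card_sub_X_natDegree_eq _ hl.one_lt] at this
    have inj := (ZMod.castHom (dvd_refl l) (𝓞 L ⧸ P.asIdeal)).injective
    have c2 : Fintype.card (ZMod l) = Fintype.card (𝓞 L ⧸ P.asIdeal) :=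
      le_antisymm (Fintype.card_le_of_injective _ inj) (by rwa [ZMod.card])
    refine ⟨by rw [Ideal.absNorm_apply, Submodule.cardQuot_apply, Nat.card_eq_fintype_card, ← c2,
      ZMod.card], fun x => ?_⟩
    obtain ⟨n, hn⟩ := ((Fintype.bijective_iff_injective_and_card _).2 ⟨inj, c2⟩).2
      (Ideal.Quotient.mk P.asIdeal x)
    obtain ⟨n, rfl⟩ := ZMod.natCast_zmod_surjective n
    exact ⟨n, by rw [← Ideal.Quotient.eq, ← hn, map_natCast, map_natCast]⟩
  obtain ⟨Q, hQ, hQl⟩ := Ideal.exists_ideal_over_prime_of_isIntegral_of_isDomain (S := 𝓞 L)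
    (Ideal.span {(l : ℤ)}) (by
      rw [(RingHom.injective_iff_ker_eq_bot _).1 (algebraMap ℤ (𝓞 L)).injective_int]
      exact bot_le)
  have hlQ : (l : 𝓞 L) ∈ Q := by
    have : (l : ℤ) ∈ Q.comap (algebraMap ℤ (𝓞 L)) := hQl ▸ Ideal.mem_span_singleton_self _
    simpa using this
  have l0 : (l : 𝓞 L) ≠ 0 := Nat.cast_ne_zero.2 hl.ne_zero
  have hm' : ∀ τ : L ≃ₐ[ℚ] L, (l : 𝓞 L) ∈ Q.comap (MulSemiringAction.toRingHom _ (𝓞 L) τ) :=
    fun τ => by rw [Ideal.mem_comap, map_natCast]; exact hlQ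
  let f : (L ≃ₐ[ℚ] L) → HeightOneSpectrum (𝓞 L) := fun τ =>
    ⟨Q.comap (MulSemiringAction.toRingHom _ (𝓞 L) τ), Ideal.comap_isPrime _ _, fun h =>
      l0 (by simpa [h] using hm' τ)⟩
  have finj : Function.Injective f := fun τ τ' h => by
    have : ∀ x : 𝓞 L, τ • x - τ' • x ∈ Q := fun x => by
      obtain ⟨n, hn⟩ := (nrm (f τ) (hm' τ)).2 x
      have h1 : τ • (x - n) ∈ Q := hn
      have h2 : τ' • (x - n) ∈ Q := (h ▸ hn : x - n ∈ (f τ').asIdeal)
      rw [smul_sub, hs] at h1 h2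
      simpa using Q.sub_mem h1 h2
    exact key Q hQ hlQ _ _ (this z) (this a)
  have fin : {P : HeightOneSpectrum (𝓞 L) | Ideal.absNorm P.asIdeal = l}.Finite :=
    (card_above (K := L) l).1.subset fun P (hP : _ = l) => by
      rw [Set.mem_setOf_eq, hP, hl.minFac_eq]
  rw [← IsGalois.card_aut_eq_finrank, ← Set.ncard_univ, ← Set.ncard_image_of_injective _ finj]
  refine Set.ncard_le_ncard ?_ fin
  rintro _ ⟨τ, -, rfl⟩
  exact (nrm _ (hm' τ)).1

end

end Vale.Agent.P016
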