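import Vale.Agent.P016.Core

namespace Vale.Agent.P016

open scoped Classical

noncomputable section

theorem card_le_pow (L : ℕ) : ∀ (k : ℕ) (W : Submodule ℚ (ℕ → ℚ)) [FiniteDimensional ℚ W],
    Module.finrank ℚ W ≤ k → ∀ S : Finset (ℕ → ℕ), (∀ s ∈ S, ∀ p, s p ≤ L) →
    (∀ s ∈ S, ∀ s' ∈ S, (fun p => (s p : ℚ) - s' p) ∈ W) → S.card ≤ (L + 1) ^ k := by
  have bot : ∀ (k : ℕ) (S : Finset (ℕ → ℕ)), (∀ s ∈ S, ∀ s' ∈ S,
      (fun p => (s p : ℚ) - s' p) ∈ (⊥ : Submodule ℚ (ℕ → ℚ))) → S.card ≤ (L + 1) ^ k :=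
    fun k S h => (Finset.card_le_one.2 fun s hs s' hs' => funext fun p => by
      have := congrFun ((Submodule.mem_bot ℚ).1 (h s hs s' hs')) p
      exact_mod_cast sub_eq_zero.1 this).trans (Nat.one_le_pow _ _ (Nat.succ_pos _))
  intro k
  induction k with
  | zero =>
    intro W _ hW S _ h
    rw [Submodule.finrank_eq_zero.1 (Nat.le_zero.1 hW)] at h
    exact bot 0 S h
  | succ k ih =>
    intro W _ hW S hL h
    by_cases h0 : W = ⊥
    · rw [h0] at h; exact bot _ S h
    obtain ⟨w, hw, hw0⟩ := (Submodule.ne_bot_iff W).1 h0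
    obtain ⟨p, hp⟩ := Function.ne_iff.1 hw0
    have hlt : W ⊓ LinearMap.ker (LinearMap.proj (R := ℚ) (φ := fun _ : ℕ => ℚ) p) < W :=
      lt_of_le_of_ne inf_le_left fun e => hp (by
        have : w ∈ W ⊓ LinearMap.ker (LinearMap.proj (R := ℚ) (φ := fun _ : ℕ => ℚ) p) := by
          rw [e]; exact hw
        exact this.2)
    have h1 := Submodule.finrank_lt_finrank_of_lt hlt
    have h2 := Finset.card_le_mul_card_image (f := fun s : ℕ → ℕ => s p) S ((L + 1) ^ k)
      fun a _ => ih (W ⊓ LinearMap.ker (LinearMap.proj (R := ℚ) (φ := fun _ : ℕ => ℚ) p))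
        (by omega) _ (fun s hs => hL s (Finset.mem_filter.1 hs).1)
        fun s hs s' hs' => by
          rw [Finset.mem_filter] at hs hs'
          refine Submodule.mem_inf.2 ⟨h s hs.1 s' hs'.1, ?_⟩
          show (s p : ℚ) - s' p = 0
          rw [hs.2, hs'.2, sub_self]
    refine h2.trans ?_
    rw [pow_succ]
    refine Nat.mul_le_mul_left _ ((Finset.card_le_card (t := Finset.range (L + 1))
      fun a ha => ?_).trans (by simp))
    obtain ⟨s, hs, rfl⟩ := Finset.mem_image.1 ha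
    exact Finset.mem_range.2 (Nat.lt_succ_of_le (hL s hs p))

theorem val_prod {R : ℕ} {a : Fin R → ℕ} (h0 : ∀ i, a i ≠ 0) {f : Fin R → ℤ}
    (h : ∏ i, (a i : ℚ) ^ f i = 1) (p : ℕ) : ∑ i, f i * ((a i).factorization p : ℤ) = 0 := by
  by_cases hp : p.Prime
  · have := Fact.mk hp
    have key : ∀ s : Finset (Fin R), padicValRat p (∏ i ∈ s, (a i : ℚ) ^ f i) =
        ∑ i ∈ s, f i * ((a i).factorization p : ℤ) := fun s => by
      induction s using Finset.induction_on with
      | empty => simp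
      | insert i s hi ih =>
        have n0 : ∀ j, (a j : ℚ) ^ f j ≠ 0 := fun j => zpow_ne_zero _ (by exact_mod_cast h0 j)
        rw [Finset.prod_insert hi, Finset.sum_insert hi, padicValRat.mul (n0 i)
          (Finset.prod_ne_zero_iff.2 fun j _ => n0 j), ih, padicValRat.zpow, padicValRat.of_nat,
          Nat.factorization_def _ hp]
    rw [← key, h, padicValRat.one]
  · simp [Nat.factorization_eq_zero_of_not_prime _ hp]

theorem card_le_of_dep {R y : ℕ} (B : Finset ℕ) (hB : ∀ b ∈ B, b ≠ 0 ∧ b ≤ y)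
    (h : ∀ a : Fin R → ℕ, (∀ i, a i ∈ B) →
      ¬ ∀ f : Fin R → ℤ, ∏ i, (a i : ℚ) ^ f i = 1 → f = 0) :
    B.card ≤ (Nat.log 2 y + 1) ^ R := by
  let v : ℕ → ℕ → ℚ := fun b p => (b.factorization p : ℚ)
  have hfin : (v '' (B : Set ℕ)).Finite := B.finite_toSet.image v
  have := FiniteDimensional.span_of_finite ℚ hfin
  have hr : Module.finrank ℚ (Submodule.span ℚ (v '' (B : Set ℕ))) ≤ R := by
    by_contra hc
    obtain ⟨t, ht, hs, hl⟩ := exists_linearIndependent ℚ (v '' (B : Set ℕ))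
    have := (hfin.subset ht).fintype
    rw [← hs, finrank_span_set_eq_card hl, Set.toFinset_card] at hc
    obtain ⟨e⟩ : Nonempty (Fin R ↪ t) := Function.Embedding.nonempty_of_card_le (by
      rw [Fintype.card_fin]; omega)
    choose a ha1 ha2 using fun i => ht (e i).2
    refine h a ha1 fun f hf => ?_
    have h1 := Fintype.linearIndependent_iff.1 (hl.comp e e.injective) (fun i => (f i : ℚ)) (by
      funext p
      have := val_prod (fun i => (hB _ (ha1 i)).1) hf p
      simp only [Finset.sum_apply, Pi.smul_apply, Function.comp, ← ha2, smul_eq_mul, v,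
        Pi.zero_apply]
      exact_mod_cast this)
    funext i
    exact_mod_cast h1 i
  have h1 := card_le_pow (Nat.log 2 y) R _ hr (B.image fun b p => b.factorization p)
    (fun s hs p => by
      obtain ⟨b, hb, rfl⟩ := Finset.mem_image.1 hs
      by_cases hp : p.Prime
      · refine Nat.le_log_of_pow_le one_lt_two ?_
        exact (Nat.pow_le_pow_left hp.two_le _).trans ((Nat.le_of_dvd
          (Nat.pos_of_ne_zero (hB b hb).1) (Nat.ordProj_dvd b p)).trans (hB b hb).2)
      · simp [Nat.factorization_eq_zero_of_not_prime _ hp])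
    (fun s hs s' hs' => by
      obtain ⟨b, hb, rfl⟩ := Finset.mem_image.1 hs
      obtain ⟨b', hb', rfl⟩ := Finset.mem_image.1 hs'
      exact Submodule.sub_mem _ (Submodule.subset_span ⟨b, hb, rfl⟩)
        (Submodule.subset_span ⟨b', hb', rfl⟩))
  rwa [Finset.card_image_of_injOn] at h1
  intro b hb b' hb' e
  exact Nat.factorization_inj (hB b hb).1 (hB b' hb').1 (DFunLike.coe_injective e)

theorem GG_le (a : ℤ) {x : ℝ} (hx : 0 ≤ x) : (GG a.natAbs x).card ≤ NA a x := by
  rw [NA, ← Set.ncard_coe_finset]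
  refine Set.ncard_le_ncard (fun l hl => ?_) ((Set.finite_Iic ⌊x⌋₊).subset fun l hl =>
    Nat.le_floor hl.2.1)
  obtain ⟨h1, h2, h3⟩ := Finset.mem_filter.1 hl
  obtain ⟨lp, l12, lx⟩ := mem_PP hx h1
  have := Fact.mk lp
  have h4 : ¬ (l : ℤ) ∣ a := by rwa [Int.natCast_dvd]
  refine ⟨lp, lx, h4, orderOf_eq_of_pow_and_pow_div_prime (Nat.sub_pos_of_lt lp.one_lt)
    (ZMod.pow_card_sub_one_eq_one (by rwa [Ne, ZMod.intCast_zmod_eq_zero_iff_dvd]))
    fun q hq hd => ?_⟩
  have ev : Even ((l - 1) / q) := by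
    obtain ⟨c, hc⟩ := hd
    rw [hc, Nat.mul_div_cancel_left _ hq.pos]
    rw [hc] at l12
    rcases hq.eq_two_or_odd' with rfl | ho
    · exact even_iff_two_dvd.2 (by omega)
    · exact (Nat.even_mul.1 (even_iff_two_dvd.2 ((by norm_num : 2 ∣ 12).trans l12))).resolve_left
        (Nat.not_even_iff_odd.2 ho)
  have e : (a : ZMod l) ^ ((l - 1) / q) = (a.natAbs : ZMod l) ^ ((l - 1) / q) := by
    rcases Int.natAbs_eq a with h | h
    · conv_lhs => rw [h]
      rw [Int.cast_natCast]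
    · conv_lhs => rw [h]
      rw [Int.cast_neg, Int.cast_natCast, ev.neg_pow]
  rw [e]
  exact h3 q hq hd

theorem indep_abs {R : ℕ} {a : Fin R → ℤ} (h : MulIndep a) (f : Fin R → ℤ)
    (hf : ∏ i, ((a i).natAbs : ℚ) ^ f i = 1) : f = 0 := by
  have h1 := h (fun i => 2 * f i) (by
    have : ∀ i, (a i : ℚ) ^ (2 * f i) = (((a i).natAbs : ℚ) ^ f i) ^ 2 := fun i => by
      rw [← zpow_natCast, ← zpow_mul, mul_comm (f i), zpow_mul, zpow_mul, Nat.cast_natAbs,
        Int.cast_abs]
      congr 1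
      exact_mod_cast (sq_abs (a i : ℚ)).symm
    simp only [this]
    rw [Finset.prod_pow, hf, one_pow])
  funext i
  have := congrFun h1 i
  simp only [Pi.zero_apply] at this ⊢
  omega

theorem adm_prime {p : ℕ} (hp : p.Prime) (h3 : p ≠ 3) : Adm p := by
  refine ⟨hp.two_le, fun b k hk h => ?_, fun ⟨r, hr⟩ => ?_⟩
  · have := (h ▸ hp : (b ^ k).Prime).eq_one_of_pow
    omega
  · have h1 : 3 ∣ r := (Nat.prime_three.dvd_mul.1 ⟨p, hr.symm⟩).elim id id
    obtain ⟨s, rfl⟩ := h1
    have h2 : 3 ∣ p := ⟨s * s, by nlinarith⟩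
    exact h3 ((Nat.prime_dvd_prime_iff_eq Nat.prime_three hp).1 h2).symm

theorem indep_primes {R : ℕ} {a : Fin R → ℕ} (hp : ∀ i, (a i).Prime) (hi : Function.Injective a)
    (f : Fin R → ℤ) (hf : ∏ i, (a i : ℚ) ^ f i = 1) : f = 0 := by
  funext j
  have h := val_prod (fun i => (hp i).ne_zero) hf (a j)
  rw [Finset.sum_eq_single j (fun i _ hij => by
    rw [(hp i).factorization, Finsupp.single_eq_of_ne' (hi.ne hij)]; simp) (by simp),
    (hp j).factorization_self] at h
  simpa using h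

end

end Vale.Agent.P016
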